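import Vale.Agent.P251.G.Homotopy
import Mathlib.Analysis.InnerProductSpace.Basic
import Mathlib.Analysis.Normed.Field.Basic

/-!
# P263: the positivity homotopy

`LC.homotopic_of_inner_nonneg`: two morphisms `f g : X ⟶ E` of `LC` (`E` a finite dimensional real
inner product space) with the same zero set and with `0 ≤ ⟪f x, g x⟫` wherever both are finite are
homotopic.  The homotopy is `ι ((1 - s) ι f + s ι g)` with `ι y = y / ‖y‖ ^ 2` the inversion of
`OnePoint E`, so nothing is required at points where one of the two values is infinite.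
-/

open CategoryTheory MonoidalCategory Filter Topology OnePoint
set_option linter.unusedSectionVars false

namespace Vale.Agent.P251.G

namespace LC

section inversion

variable {E : Type} [NormedAddCommGroup E] [InnerProductSpace ℝ E]

/-- the finite part of a point of `OnePoint E` (junk value `0` at `∞`) -/
def fin (v : OnePoint E) : E := v.elim 0 id

@[simp] theorem fin_coe (v : E) : fin (v : OnePoint E) = v := rfl
@[simp] theorem fin_infty : fin (∞ : OnePoint E) = 0 := rfl

/-- the inversion as a map `OnePoint E → E` (junk value `0` at `0`) -/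
noncomputable def inv (v : OnePoint E) : E := v.elim 0 fun v => (‖v‖ ^ 2)⁻¹ • v

@[simp] theorem inv_coe (v : E) : inv (v : OnePoint E) = (‖v‖ ^ 2)⁻¹ • v := rfl
@[simp] theorem inv_infty : inv (∞ : OnePoint E) = 0 := rfl

open scoped Classical in
/-- the inversion as a map `E → OnePoint E` -/
noncomputable def inv' (y : E) : OnePoint E := if y = 0 then ∞ else ((‖y‖ ^ 2)⁻¹ • y : E)

theorem norm_inv_coe (v : E) : ‖inv (v : OnePoint E)‖ = ‖v‖⁻¹ := by
  rw [inv_coe, norm_smul, norm_inv, norm_pow, norm_norm]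
  by_cases h : ‖v‖ = 0
  · rw [h]; simp
  · field_simp

theorem inv'_inv {v : OnePoint E} (hv : v ≠ ((0 : E) : OnePoint E)) : inv' (inv v) = v := by
  induction v using OnePoint.rec with
  | infty => rw [inv_infty]; unfold inv'; rw [if_pos rfl]
  | coe v =>
    have hv0 : v ≠ 0 := fun h => hv (by rw [h])
    have hn : ‖v‖ ≠ 0 := norm_ne_zero_iff.mpr hv0
    have h1 : inv (v : OnePoint E) ≠ 0 := by
      rw [← norm_ne_zero_iff, norm_inv_coe]; exact inv_ne_zero hn
    unfold inv'
    rw [if_neg h1, norm_inv_coe, inv_coe, smul_smul]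
    congr 1
    rw [show ((‖v‖⁻¹ ^ 2)⁻¹ * (‖v‖ ^ 2)⁻¹ : ℝ) = 1 by field_simp, one_smul]

theorem inv_sub_zero : inv' (0 : E) = ∞ := by unfold inv'; rw [if_pos rfl]

theorem continuous_inv' [ProperSpace E] : Continuous (inv' : E → OnePoint E) := by
  rw [continuous_iff_continuousAt]
  intro y
  by_cases hy : y = 0
  · subst hy
    have h0 : inv' (0 : E) = ∞ := inv_sub_zero
    rw [ContinuousAt, h0]
    -- near `0` the values have large norm
    rw [OnePoint.nhds_infty_eq, coclosedCompact_eq_cocompact, tendsto_def]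
    intro s hs
    rw [mem_sup, mem_map, mem_pure] at hs
    obtain ⟨hs1, hs2⟩ := hs
    obtain ⟨K, hK, hKs⟩ := mem_cocompact.mp hs1
    obtain ⟨R, hR⟩ := hK.isBounded.exists_norm_le
    have hR' : ∀ v : E, max R 1 < ‖v‖ → (v : OnePoint E) ∈ s := by
      intro v hv
      apply hKs
      intro hvK
      exact absurd (hR v hvK) (not_le.mpr ((le_max_left _ _).trans_lt hv))
    have hpos : (0 : ℝ) < (max R 1)⁻¹ := inv_pos.mpr (lt_of_lt_of_le one_pos (le_max_right _ _))
    refine mem_of_superset (Metric.ball_mem_nhds (0 : E) hpos) ?_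
    intro z hz
    rw [Metric.mem_ball, dist_zero_right] at hz
    rw [Set.mem_preimage]
    by_cases hz0 : z = 0
    · rw [hz0, h0]; exact hs2
    · unfold inv'
      rw [if_neg hz0]
      apply hR'
      have hn : 0 < ‖z‖ := norm_pos_iff.mpr hz0
      rw [norm_smul, norm_inv, norm_pow, norm_norm]
      have : (‖z‖ ^ 2)⁻¹ * ‖z‖ = ‖z‖⁻¹ := by field_simp
      rw [this]
      exact (lt_inv_comm₀ hn (lt_of_lt_of_le one_pos (le_max_right _ _))).mp hz
  · have h1 : ∀ᶠ z in 𝓝 y, inv' z = (((‖z‖ ^ 2)⁻¹ • z : E) : OnePoint E) := by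
      filter_upwards [isOpen_ne.mem_nhds hy] with z hz
      unfold inv'
      rw [if_neg hz]
    refine ContinuousAt.congr (f := fun z => (((‖z‖ ^ 2)⁻¹ • z : E) : OnePoint E)) ?_
      (h1.mono fun z hz => hz.symm)
    refine (OnePoint.continuous_coe.continuousAt).comp ?_
    refine ContinuousAt.smul (ContinuousAt.inv₀ ?_ ?_) continuousAt_id
    · exact (continuous_norm.pow 2).continuousAt
    · exact pow_ne_zero 2 (norm_ne_zero_iff.mpr hy)

theorem continuousAt_inv [ProperSpace E] {v : OnePoint E} (hv : v ≠ ((0 : E) : OnePoint E)) :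
    ContinuousAt (inv : OnePoint E → E) v := by
  induction v using OnePoint.rec with
  | infty =>
    rw [OnePoint.continuousAt_infty', coclosedCompact_eq_cocompact, inv_infty]
    rw [tendsto_zero_iff_norm_tendsto_zero]
    have : (fun v : E => ‖(inv ∘ ((↑) : E → OnePoint E)) v‖) = fun v : E => ‖v‖⁻¹ := by
      funext v; exact norm_inv_coe v
    rw [this]
    exact tendsto_inv_atTop_zero.comp tendsto_norm_cocompact_atTop
  | coe v =>
    have hv0 : v ≠ 0 := fun h => hv (by rw [h])
    rw [OnePoint.continuousAt_coe]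
    change ContinuousAt (fun v : E => (‖v‖ ^ 2)⁻¹ • v) v
    refine ContinuousAt.smul (ContinuousAt.inv₀ ?_ ?_) continuousAt_id
    · exact (continuous_norm.pow 2).continuousAt
    · exact pow_ne_zero 2 (norm_ne_zero_iff.mpr hv0)

end inversion

section homotopy

variable {E : Type} [NormedAddCommGroup E] [InnerProductSpace ℝ E]

theorem norm_comb_ge {a b : E} (h : 0 ≤ inner ℝ a b) {s : ℝ} (hs : s ∈ Set.Icc (0 : ℝ) 1) {c : ℝ}
    (hc : 0 ≤ c) (ha : c ≤ ‖a‖) (hb : c ≤ ‖b‖) : c / 2 ≤ ‖(1 - s) • a + s • b‖ := by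
  obtain ⟨h0, h1⟩ := hs
  have e : ‖(1 - s) • a + s • b‖ ^ 2 =
      (1 - s) ^ 2 * ‖a‖ ^ 2 + 2 * ((1 - s) * s * inner ℝ a b) + s ^ 2 * ‖b‖ ^ 2 := by
    rw [norm_add_sq_real, norm_smul, norm_smul, real_inner_smul_left, real_inner_smul_right,
      Real.norm_eq_abs, Real.norm_eq_abs, mul_pow, mul_pow, sq_abs, sq_abs]
    ring
  have h2 : 0 ≤ (1 - s) * s * inner ℝ a b := mul_nonneg (mul_nonneg (by linarith) h0) h
  have h3 : c ^ 2 ≤ ‖a‖ ^ 2 := pow_le_pow_left₀ hc ha 2
  have h4 : c ^ 2 ≤ ‖b‖ ^ 2 := pow_le_pow_left₀ hc hb 2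
  have h5 : (c / 2) ^ 2 ≤ ‖(1 - s) • a + s • b‖ ^ 2 := by
    rw [e]
    have h6 : (1 - s) ^ 2 * c ^ 2 ≤ (1 - s) ^ 2 * ‖a‖ ^ 2 :=
      mul_le_mul_of_nonneg_left h3 (sq_nonneg _)
    have h7 : s ^ 2 * c ^ 2 ≤ s ^ 2 * ‖b‖ ^ 2 := mul_le_mul_of_nonneg_left h4 (sq_nonneg _)
    nlinarith [sq_nonneg ((1 - 2 * s) * c), sq_nonneg c]
  exact abs_le_of_sq_le_sq' h5 (norm_nonneg _) |>.2

theorem inner_inv_nonneg {v w : OnePoint E}
    (h : ∀ a b : E, v = (a : OnePoint E) → w = (b : OnePoint E) → 0 ≤ inner ℝ a b) :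
    0 ≤ inner ℝ (inv v) (inv w) := by
  induction v using OnePoint.rec with
  | infty => simp
  | coe a =>
    induction w using OnePoint.rec with
    | infty => simp
    | coe b =>
      rw [inv_coe, inv_coe, real_inner_smul_left, real_inner_smul_right]
      exact mul_nonneg (by positivity) (mul_nonneg (by positivity) (h a b rfl rfl))

open scoped Classical in
/-- the homotopy of the positivity lemma -/
noncomputable def posHtpy (v w : OnePoint E) (s : ℝ) : OnePoint E :=
  if v = ((0 : E) : OnePoint E) then ((0 : E) : OnePoint E)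
  else inv' ((1 - s) • inv v + s • inv w)

theorem posHtpy_zero {v w : OnePoint E} : posHtpy v w 0 = v := by
  unfold posHtpy
  split_ifs with h
  · exact h.symm
  · rw [sub_zero, one_smul, zero_smul, add_zero, inv'_inv h]

theorem posHtpy_one {v w : OnePoint E} (h : v = ((0 : E) : OnePoint E) ↔ w = ((0 : E) : OnePoint E)) :
    posHtpy v w 1 = w := by
  unfold posHtpy
  split_ifs with h0
  · exact (h.mp h0).symm
  · rw [sub_self, one_smul, zero_smul, zero_add, inv'_inv fun h1 => h0 (h.mpr h1)]

theorem posHtpy_infty (s : ℝ) : posHtpy (∞ : OnePoint E) (∞ : OnePoint E) s = ∞ := by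
  unfold posHtpy
  rw [if_neg (OnePoint.infty_ne_coe _), inv_infty, smul_zero, smul_zero, add_zero, inv_sub_zero]

theorem continuous_posHtpy [ProperSpace E] {K : Type*} [TopologicalSpace K] {f g : K → OnePoint E}
    (hf : Continuous f) (hg : Continuous g)
    (h0 : ∀ x, f x = ((0 : E) : OnePoint E) ↔ g x = ((0 : E) : OnePoint E))
    (h : ∀ x (a b : E), f x = (a : OnePoint E) → g x = (b : OnePoint E) → 0 ≤ inner ℝ a b) :
    Continuous fun p : unitInterval × K => posHtpy (f p.2) (g p.2) (p.1 : ℝ) := by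
  rw [continuous_iff_continuousAt]
  rintro ⟨s, x⟩
  by_cases hx : f x = ((0 : E) : OnePoint E)
  · have hx' := (h0 x).mp hx
    have hv : posHtpy (f x) (g x) (s : ℝ) = ((0 : E) : OnePoint E) := by
      unfold posHtpy; rw [if_pos hx]
    rw [ContinuousAt, hv]
    -- near `x` both values are finite and small
    intro N hN
    obtain ⟨ε, hε, hεN⟩ := Metric.mem_nhds_iff.mp
      ((OnePoint.continuous_coe.continuousAt (x := (0 : E))) hN)
    have hball : ∀ ρ : ℝ, 0 < ρ → ((↑) '' Metric.ball (0 : E) ρ : Set (OnePoint E)) ∈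
        𝓝 ((0 : E) : OnePoint E) := fun ρ hρ =>
      OnePoint.isOpenEmbedding_coe.isOpenMap.image_mem_nhds (Metric.ball_mem_nhds _ hρ)
    have hf1 : ∀ᶠ p in 𝓝 (s, x), f p.2 ∈ ((↑) '' Metric.ball (0 : E) (ε / 4) : Set (OnePoint E)) := by
      have : ContinuousAt (fun p : unitInterval × K => f p.2) (s, x) :=
        (hf.comp continuous_snd).continuousAt
      exact this (by simpa [hx] using hball (ε / 4) (by positivity))
    have hg1 : ∀ᶠ p in 𝓝 (s, x), g p.2 ∈ ((↑) '' Metric.ball (0 : E) (ε / 4) : Set (OnePoint E)) := by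
      have : ContinuousAt (fun p : unitInterval × K => g p.2) (s, x) :=
        (hg.comp continuous_snd).continuousAt
      exact this (by simpa [hx'] using hball (ε / 4) (by positivity))
    rw [mem_map]
    filter_upwards [hf1, hg1] with p hp1 hp2
    obtain ⟨a, ha, hfa⟩ := hp1
    obtain ⟨b, hb, hgb⟩ := hp2
    rw [Metric.mem_ball, dist_zero_right] at ha hb
    rw [Set.mem_preimage]
    unfold posHtpy
    by_cases hp0 : f p.2 = ((0 : E) : OnePoint E)
    · rw [if_pos hp0]
      exact hεN (Metric.mem_ball_self hε)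
    · rw [if_neg hp0]
      have ha0 : a ≠ 0 := fun e => hp0 (by rw [← hfa, e])
      have hb0 : b ≠ 0 := fun e => hp0 ((h0 _).mpr (by rw [← hgb, e]))
      have hna : 0 < ‖a‖ := norm_pos_iff.mpr ha0
      have hnb : 0 < ‖b‖ := norm_pos_iff.mpr hb0
      have hin : 0 ≤ inner ℝ (inv (f p.2)) (inv (g p.2)) := inner_inv_nonneg (h p.2)
      have hca : (ε / 4)⁻¹ ≤ ‖inv (f p.2)‖ := by
        rw [← hfa, norm_inv_coe]; exact inv_anti₀ hna ha.le
      have hcb : (ε / 4)⁻¹ ≤ ‖inv (g p.2)‖ := by
        rw [← hgb, norm_inv_coe]; exact inv_anti₀ hnb hb.le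
      have hge := norm_comb_ge hin p.1.2 (inv_nonneg.mpr (by positivity)) hca hcb
      set y : E := (1 - (p.1 : ℝ)) • inv (f p.2) + (p.1 : ℝ) • inv (g p.2) with hy
      have hye : (ε / 4)⁻¹ / 2 = (ε / 2)⁻¹ := by field_simp; norm_num
      rw [hye] at hge
      have hypos : 0 < ‖y‖ := lt_of_lt_of_le (inv_pos.mpr (half_pos hε)) hge
      unfold inv'
      rw [if_neg (norm_pos_iff.mp hypos)]
      have hfin : ‖(‖y‖ ^ 2)⁻¹ • y‖ ≤ ε / 2 := by
        rw [norm_smul, norm_inv, norm_pow, norm_norm]
        have : (‖y‖ ^ 2)⁻¹ * ‖y‖ = ‖y‖⁻¹ := by field_simp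
        rw [this]
        exact inv_le_of_inv_le₀ (half_pos hε) hge
      exact hεN (by rw [Metric.mem_ball, dist_zero_right]; linarith)
  · have hx' : g x ≠ ((0 : E) : OnePoint E) := fun e => hx ((h0 x).mpr e)
    have hcl : IsClosed ({((0 : E) : OnePoint E)} : Set (OnePoint E)) := isClosed_singleton
    have hfc : ContinuousAt (fun p : unitInterval × K => f p.2) (s, x) :=
      (hf.comp continuous_snd).continuousAt
    have hev : ∀ᶠ p in 𝓝 (s, x), f p.2 ≠ ((0 : E) : OnePoint E) :=
      hfc (hcl.isOpen_compl.mem_nhds hx)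
    refine ContinuousAt.congr
      (f := fun p : unitInterval × K =>
        inv' ((1 - (p.1 : ℝ)) • inv (f p.2) + (p.1 : ℝ) • inv (g p.2))) ?_ ?_
    · refine continuous_inv'.continuousAt.comp ?_
      have hA : ContinuousAt (fun p : unitInterval × K => inv (f p.2)) (s, x) :=
        ContinuousAt.comp (g := inv) (continuousAt_inv hx) (hf.comp continuous_snd).continuousAt
      have hB : ContinuousAt (fun p : unitInterval × K => inv (g p.2)) (s, x) :=
        ContinuousAt.comp (g := inv) (continuousAt_inv hx') (hg.comp continuous_snd).continuousAt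
      have hs : ContinuousAt (fun p : unitInterval × K => (p.1 : ℝ)) (s, x) :=
        (continuous_subtype_val.comp continuous_fst).continuousAt
      exact ((continuousAt_const.sub hs).smul hA).add (hs.smul hB)
    · filter_upwards [hev] with p hp
      unfold posHtpy
      rw [if_neg hp]

variable {X : LC} [ProperSpace E]

/-- **Lemma P.** Two morphisms to a Euclidean space with the same zero set and with nonnegative
inner product wherever both are finite are homotopic. -/
theorem homotopic_of_inner_nonneg (f g : X ⟶ LC.of E)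
    (h0 : ∀ x : X, app f (x : OnePoint X) = ((0 : E) : OnePoint E) ↔
      app g (x : OnePoint X) = ((0 : E) : OnePoint E))
    (h : ∀ (x : X) (a b : E), app f (x : OnePoint X) = (a : OnePoint E) →
      app g (x : OnePoint X) = (b : OnePoint E) → 0 ≤ inner ℝ a b) : Homotopic f g := by
  have h0' : ∀ x : OnePoint X, app f x = ((0 : E) : OnePoint E) ↔
      app g x = ((0 : E) : OnePoint E) := by
    intro x
    induction x using OnePoint.rec with
    | infty =>
      rw [app_infty f, app_infty g]
    | coe x => exact h0 x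
  have h' : ∀ (x : OnePoint X) (a b : E), app f x = (a : OnePoint E) →
      app g x = (b : OnePoint E) → 0 ≤ inner ℝ a b := by
    intro x a b
    induction x using OnePoint.rec with
    | infty =>
      intro ha
      rw [app_infty f] at ha
      exact absurd ha (OnePoint.infty_ne_coe _)
    | coe x => exact h x a b
  rw [homotopic_iff]
  refine ⟨⟨⟨⟨fun p => posHtpy (app f p.2) (app g p.2) (p.1 : ℝ),
    continuous_posHtpy (continuous_app f) (continuous_app g) h0' h'⟩, ?_, ?_⟩, ?_⟩⟩
  · intro x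
    exact posHtpy_zero
  · intro x
    exact posHtpy_one (h0' x)
  · intro t x hx
    obtain rfl : x = ∞ := hx
    change posHtpy (app f ∞) (app g ∞) (t : ℝ) = app f ∞
    rw [app_infty f, app_infty g, posHtpy_infty]

end homotopy

end LC

end Vale.Agent.P251.G
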